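import Vale.Agent.P255.Main
import Vale.Agent.P255.Conn

open scoped ContDiff Manifold

namespace Vale.Agent.Results.P255.Counter

open Vale.Agent.P255

theorem result : ∃ (M : Type) (_ : TopologicalSpace M) (_ : T2Space M) (_ : CompactSpace M)
    (_ : ConnectedSpace M) (_ : ChartedSpace (ℝ × ℝ × ℝ) M)
    (_ : IsManifold 𝓘(ℝ, ℝ × ℝ × ℝ) ∞ M),
    (∃ g : RMetric (ℝ × ℝ × ℝ) M, NoConj g) ∧ ∀ g : RMetric (ℝ × ℝ × ℝ) M, ¬ Nonpos g := by
  obtain ⟨P⟩ := exists_prof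
  obtain ⟨M, i1, i2, i3, i4, i5, π', h⟩ := exists_manifold (etale_model P.hc)
    ⟨none, 0, by simp [Om]⟩
  exact ⟨M, i1, i2, i3, connected_model P.hc h, i4, i5, exists_noConj P h, not_nonpos P.hc h⟩

end Vale.Agent.Results.P255.Counter
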